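import Vale.Agent.P128.G1
import Vale.Agent.P128.Br2

namespace Vale.Agent.Results.P128.Conn

open Vale.Agent.P128

theorem result (u : ℂ → ℝ) (G : ℂ → ℂ) (K : Set ℂ) (h : GlobalMin u G K)
    (hr : Reduced Set.univ K) : IsPreconnected K := by
  obtain ⟨v, hv⟩ := br2 h hr
  exact (g1 hv).preconn

end Vale.Agent.Results.P128.Conn
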