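import Vale.Agent.P128.Main

namespace Vale.Agent.Results.P128.Full

open MeasureTheory Vale.Agent.P128

theorem result (Ω : Set ℂ) (hΩ : IsOpen Ω) (g u : ℂ → ℝ) (G : ℂ → ℂ) (K : Set ℂ)
    (hg : MemLp g ⊤ (volume.restrict Ω)) (h : Minimizer Ω g u G K) (hr : Reduced Ω K) :
    ∀ x ∈ K, Loc Ω K x :=
  fun _ hx => main hΩ hg h hr hx

end Vale.Agent.Results.P128.Full
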